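import Vale.Agent.P284.H248.Defs
import Mathlib.AlgebraicTopology.FundamentalGroupoid.FundamentalGroup
import Mathlib.MeasureTheory.Integral.CircleAverage
import Mathlib.Topology.Covering.Basic
import Mathlib.Topology.Semicontinuity.Defs
import Mathlib.Geometry.Manifold.ContMDiff.Defs
import Mathlib.Geometry.Manifold.MFDeriv.Defs

/-!
# P284 (helper894, helper468, helper107): growth of groups, plurisubharmonic functions on Galois
coverings, chains of entire curves. FROZEN.
-/

open scoped Manifold ContDiff Topology Pointwise
open Filter Set Metric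

noncomputable section

namespace Vale.Agent.P284.H894.G

open Vale.Agent.P272.K

/-- The finite set `S` has subexponential growth: `#(S^k) ≤ C exp (ε k)` for every `ε > 0`. -/
def Subexp {A : Type*} [Group A] (S : Set A) : Prop :=
  ∀ ε : ℝ, 0 < ε → ∃ C : ℝ, ∀ k : ℕ, ((S ^ k).ncard : ℝ) ≤ C * Real.exp (ε * k)

/-- The group has subexponential growth. -/
def SubexpGrowth (A : Type*) [Group A] : Prop := ∀ S : Set A, S.Finite → Subexp S

/-- `p : E → X` is a Galois covering with group `Γ` (`Γ` acts on `E` freely, the orbits are the fibres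
of the covering map `p`). -/
structure IsGalois {X E : Type} [TopologicalSpace X] [TopologicalSpace E] (Γ : Type) [Group Γ]
    [MulAction Γ E] (p : E → X) : Prop where
  cov : IsCoveringMap p
  surj : Function.Surjective p
  cont : ∀ γ : Γ, Continuous fun y : E => γ • y
  free : ∀ (γ : Γ) (y : E), γ • y = y → γ = 1
  orb : ∀ y y' : E, p y = p y' ↔ ∃ γ : Γ, γ • y = y'

section
variable {n : ℕ} {X : Type} [TopologicalSpace X] [ChartedSpace (Cm n) X]
  {E : Type} [TopologicalSpace E]

/-- `φ` is a holomorphic map from the unit disc to the covering space `E` of `X` (the complex structure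
of `E` is lifted from `X`). -/
structure IsDisc (p : E → X) (φ : ℂ → E) : Prop where
  cont : ContinuousOn φ (ball 0 1)
  holo : ∀ t ∈ ball (0 : ℂ) 1, ∀ e : Chart n X, At e (p (φ t)) →
    DifferentiableAt ℂ (fun s => e (p (φ s))) t

/-- The (bounded) function `u` on the covering space `E` of `X` is plurisubharmonic: it is upper
semicontinuous, and subharmonic on holomorphic discs (the value at the centre is at most the mean over
small circles). -/
structure IsPsh (p : E → X) (u : E → ℝ) : Prop where
  usc : UpperSemicontinuous u
  mean : ∀ φ : ℂ → E, IsDisc (n := n) p φ →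
    ∃ δ > 0, ∀ ρ ∈ Ioo (0 : ℝ) δ, u (φ 0) ≤ Real.circleAverage (fun t => u (φ t)) 0 ρ

variable (n X) in
/-- The points `x` and `y` of `X` lie on a common entire curve. -/
def OnCurve (x y : X) : Prop :=
  ∃ f : ℂ → X, ContMDiff 𝓘(ℂ) 𝓘(ℂ, Cm n) ω f ∧ f 0 = x ∧ f 1 = y

variable (n X) in
/-- The points `x` and `y` of `X` are joined by a chain of entire curves. -/
def Chain (x y : X) : Prop := Relation.ReflTransGen (OnCurve n X) x y

end

end Vale.Agent.P284.H894.G
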