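import Vale.Agent.P284.H894.MkCoc
import Vale.Agent.P284.H894.G.Defs
import Mathlib.AlgebraicTopology.FundamentalGroupoid.SimplyConnected

/-!
# P284: exponential growth of `π₁` gives a bounded plurisubharmonic function on the universal covering

FROZEN statements of the blocks G0 … G9.
-/

open scoped Manifold ContDiff Topology Pointwise
open Filter Set Metric

noncomputable section

namespace Vale.Agent.P284.H894.G

open Vale.Agent.P272.K Vale.Agent.P284.H248 Vale.Agent.P284.H894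

section
variable {n : ℕ} {Γ : Type} [Group Γ]

/-- peak at the point `z` of the piece `(1, a)` -/
def PeakedAt {C : Coc n Γ} {m : ℕ} (s : HS C m) (a : C.I) (z : Cm n) : Prop :=
  s.F 1 a z ≠ 0 ∧ Summable (fun γ : Γ => ‖s.F γ a z‖) ∧
    ∑' γ : Γ, ‖s.F γ a z‖ ≤ (4 / 3) * ‖s.F 1 a z‖

end

/-- **G0a** = `A1` with a ball centred at a given point. -/
def G0aStmt : Prop :=
  ∀ (n : ℕ) (X : Type) [TopologicalSpace X] [T2Space X] [CompactSpace X] [Nonempty X]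
    [ChartedSpace (Cm n) X] [IsManifold 𝓘(ℂ, Cm n) ω X] (L : LineBundle n X) (x : X),
    ∃ (P : Pcs L) (a : P.I), x ∈ (P.e a).source ∧ P.e a x = P.c a

/-- **G0b** = `B` with the peak at the centre of a given ball. -/
def G0bStmt : Prop :=
  ∀ (n : ℕ) (Γ : Type) [Group Γ] (C : Coc n Γ), PU C → Wgt C → ∀ a : C.I,
    ∃ m : ℕ, 1 ≤ m ∧ ∃ (s : HS C m) (ρ : Γ → ℝ), s.Small ρ ∧ PeakedAt s a (C.c a)

/-- **G1**: a combination `F = Σ_{g ∈ S} c(g) (g s)` with a zero of order `M` at the peak point and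
`max |c| = 1` (`S` has more than `M^(n+1)` elements). -/
def G1Stmt : Prop :=
  ∀ (n : ℕ) (Γ : Type) [Group Γ] (C : Coc n Γ) (m : ℕ) (s : HS C m) (ρ : Γ → ℝ) (a : C.I),
    ∀ z ∈ C.V a, s.Small ρ → PeakedAt s a z →
    ∃ A B : ℝ, 0 < A ∧ 0 < B ∧ ∀ (M : ℕ) (S : Finset Γ), M ^ (n + 1) < S.card →
      ∃ F : HS C m, (∀ γ b, ∀ w ∈ C.V b, ‖F.F γ b w‖ ≤ B) ∧
        (∀ k < M, ∀ v : Cm n, iteratedDeriv k (fun t : ℂ => F.F 1 a (z + t • v)) 0 = 0) ∧
        ∃ g ∈ S, A ≤ ‖F.F g a z‖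

/-- **G2**: Schwarz lemma. -/
def G2Stmt : Prop :=
  ∀ (n : ℕ) (f : Cm n → ℂ) (z : Cm n) (r B : ℝ) (M : ℕ), 0 < r →
    DifferentiableOn ℂ f (ball z r) → (∀ w ∈ ball z r, ‖f w‖ ≤ B) →
    (∀ k < M, ∀ v : Cm n, iteratedDeriv k (fun t : ℂ => f (z + t • v)) 0 = 0) →
    ∀ w ∈ closedBall z (r / 2), ‖f w‖ ≤ B * (1 / 2) ^ M

/-- Conclusion of G3: exponential growth of `S` gives a sequence of holomorphic sections with a definite
drop between the cells `1` and `t ∈ S`. -/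
def G3Concl : Prop :=
  ∀ (n : ℕ) (Γ : Type) [Group Γ] (C : Coc n Γ) (m : ℕ) (s : HS C m) (ρ : Γ → ℝ) (a : C.I),
    ∀ z ∈ C.V a, s.Small ρ → PeakedAt s a z → ∀ S : Set Γ, S.Finite → ¬ Subexp S →
    ∀ r : ℝ, 0 < r → ball z (2 * r) ⊆ C.V a →
    ∃ t ∈ S, ∃ α β : ℝ, 0 ≤ α ∧ α < β ∧ ∃ (F : ℕ → HS C m) (p : ℕ → ℝ),
      (∀ j, 0 < p j) ∧ Tendsto p atTop (𝓝 0) ∧ (∀ j γ b, ∀ w ∈ C.V b, ‖(F j).F γ b w‖ ≤ 1) ∧
      (∀ j, ∀ w ∈ closedBall z r, ‖(F j).F 1 a w‖ ^ p j ≤ α) ∧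
      ∀ j, ∃ w ∈ closedBall z r, β ≤ ‖(F j).F t a w‖ ^ p j

/-- **G3**. Proof: `‖F‖ ≤ (1/2)^M` on the cell `1`, `‖F‖ ≥ A/B` on the cell `g ∈ S^k`,
`M ≈ exp (ε k / (2 (n+1)))`, `θ = exp (-ε / (8 (n+1)))`: for the word `y_i = s_1 ⋯ s_i` there is a first `i`
with `‖F‖ ≤ τ_i := (1/2)^(M θ^i)` on the cell `y_i` and not `‖F‖ ≤ τ_i^θ` on the cell `y_i s_{i+1}`;
`p := 1 / log (1/τ_i)`, `α = exp (-1)`, `β = exp (-θ)`, `t = s_{i+1}` (pigeonhole), translate by `y_i`. -/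
def G3Stmt : Prop := G1Stmt → G2Stmt → G3Concl

/-- A plurisubharmonic function on the covering, `0 ≤ v ≤ 1`, on the pieces. -/
structure PshFam {n : ℕ} {Γ : Type} [Group Γ] (C : Coc n Γ) where
  v : Γ → C.I → Cm n → ℝ
  nonneg : ∀ γ a z, 0 ≤ v γ a z
  le_one : ∀ γ a z, v γ a z ≤ 1
  change : ∀ γ a b z, z ∈ C.O a b → z ∈ C.V a → C.T a b z ∈ C.V b →
    v γ a z = v (γ * C.κ a b z) b (C.T a b z)
  usc : ∀ γ a, ∀ z ∈ C.V a, UpperSemicontinuousAt (v γ a) z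
  mean : ∀ γ a (φ : ℂ → Cm n), DifferentiableOn ℂ φ (ball 0 1) → (∀ t ∈ ball (0 : ℂ) 1, φ t ∈ C.V a) →
    ∀ ρ ∈ Ioo (0 : ℝ) 1, v γ a (φ 0) ≤ Real.circleAverage (fun t => v γ a (φ t)) 0 ρ

/-- **G4**: the relaxed upper limit `v(z) = inf_N sup_{j ≥ N, |z' - z| < 1/N} ‖F_j(z')‖^{p_j}`. -/
def G4Stmt : Prop :=
  ∀ (n : ℕ) (Γ : Type) [Group Γ] (C : Coc n Γ) (m : ℕ) (F : ℕ → HS C m) (p : ℕ → ℝ),
    (∀ j, 0 < p j) → Tendsto p atTop (𝓝 0) → (∀ j γ b, ∀ w ∈ C.V b, ‖(F j).F γ b w‖ ≤ 1) →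
    ∃ v : PshFam C,
      (∀ γ b (U : Set (Cm n)) (α : ℝ), IsOpen U → U ⊆ C.V b →
        (∀ j, ∀ w ∈ U, ‖(F j).F γ b w‖ ^ p j ≤ α) → ∀ w ∈ U, v.v γ b w ≤ α) ∧
      ∀ γ b (K : Set (Cm n)) (β : ℝ), IsCompact K → K ⊆ C.V b →
        (∀ j, ∃ w ∈ K, β ≤ ‖(F j).F γ b w‖ ^ p j) → ∃ w ∈ K, β ≤ v.v γ b w

/-- **G5**: the pieces of a Galois covering `p : E → X` (as in block A2, `H678/A2.lean`), with given
values at the centres, and the passage from `PshFam` to plurisubharmonic functions on `E`. -/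
def G5Stmt : Prop :=
  ∀ (n : ℕ) (X : Type) [TopologicalSpace X] [T2Space X] [CompactSpace X] [ConnectedSpace X]
    [ChartedSpace (Cm n) X] [IsManifold 𝓘(ℂ, Cm n) ω X] (L : LineBundle n X) (P : Pcs L)
    (E Γ : Type) [TopologicalSpace E] [ConnectedSpace E] [Group Γ] [MulAction Γ E] (p : E → X),
    IsGalois Γ p → ∀ y : P.I → E, (∀ a, p (y a) = (P.e a).symm (P.c a)) →
    ∃ (K : KD P Γ) (σ : P.I → Cm n → E),
      (∀ a, ContinuousOn (σ a) (ball (P.c a) (4 * P.r a))) ∧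
      (∀ a, ∀ z ∈ ball (P.c a) (4 * P.r a), p (σ a z) = (P.e a).symm z) ∧
      (∀ a, σ a (P.c a) = y a) ∧
      ∀ v : PshFam (mkCoc P K), ∃ u : E → ℝ, IsPsh (n := n) p u ∧ (∀ y, 0 ≤ u y ∧ u y ≤ 1) ∧
        ∀ γ a, ∀ z ∈ ball (P.c a) (3 * P.r a), u (γ • σ a z) = v.v γ a z

/-- **G6**: exponential growth gives a bounded psh function with a definite drop between neighbourhoods
of `y` and `t • y`, `t ∈ S` (assembly of G0a, G0b, G3, G4, G5, A4, A5). -/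
def G6Concl : Prop :=
  ∀ (n : ℕ) (X : Type) [TopologicalSpace X] [T2Space X] [CompactSpace X] [ConnectedSpace X]
    [ChartedSpace (Cm n) X] [IsManifold 𝓘(ℂ, Cm n) ω X] (L : LineBundle n X), Positive L →
    ∀ (E Γ : Type) [TopologicalSpace E] [ConnectedSpace E] [Group Γ] [MulAction Γ E] (p : E → X),
    IsGalois Γ p → ∀ (S : Set Γ), S.Finite → ¬ Subexp S → ∀ (y : E), ∀ W ∈ 𝓝 y,
    ∃ t ∈ S, ∃ u : E → ℝ, IsPsh (n := n) p u ∧ (∀ y, 0 ≤ u y ∧ u y ≤ 1) ∧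
      ∃ y' ∈ W, u y < u (t • y')

def G6Stmt : Prop :=
  G0aStmt → A4Stmt → A5Stmt → G0bStmt → G3Concl → G4Stmt → G5Stmt → G6Concl

/-- **G7**: Liouville theorem for bounded subharmonic functions on `ℂ`. -/
def G7Stmt : Prop :=
  ∀ w : ℂ → ℝ, UpperSemicontinuous w → (∃ B : ℝ, ∀ z, |w z| ≤ B) →
    (∀ c, ∃ δ > 0, ∀ ρ ∈ Ioo (0 : ℝ) δ, w c ≤ Real.circleAverage w c ρ) → ∀ z z', w z = w z'

/-- Conclusion of G8: a bounded psh function is constant along (lifts of) chains of entire curves. -/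
def G8Concl : Prop :=
  ∀ (n : ℕ) (X : Type) [TopologicalSpace X] [T2Space X] [ChartedSpace (Cm n) X]
    [IsManifold 𝓘(ℂ, Cm n) ω X] (E : Type) [TopologicalSpace E] (p : E → X), IsCoveringMap p →
    Function.Surjective p → ∀ (y : E) (q : X), Chain n X (p y) q →
    ∃ y' : E, p y' = q ∧ ∀ u : E → ℝ, IsPsh (n := n) p u → (∃ B : ℝ, ∀ y, |u y| ≤ B) → u y' = u y

/-- **G8**: lift the entire curves to `E`; `u ∘ f~` is constant by G7. -/
def G8Stmt : Prop := G7Stmt → G8Concl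

/-- **G10**: a bounded subharmonic function on the unit disc (not assumed continuous) with countably many
values is constant. Proof (helper468): `M(r) = max of w over closedBall 0 r` is attained (usc), so it takes
countably many values; it is continuous (right: compactness + usc; left: sub-mean inequality on small
circles, one third of which lies in the open ball), so constant: `w ≤ w 0`; then `{w = w 0}` is open
(sub-mean) and closed (usc). -/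
def G10Stmt : Prop :=
  ∀ w : ℂ → ℝ, (∀ z ∈ ball (0 : ℂ) 1, UpperSemicontinuousAt w z) → (∃ B : ℝ, ∀ z, |w z| ≤ B) →
    (∀ c ∈ ball (0 : ℂ) 1, ∃ δ > 0, ∀ ρ ∈ Ioo (0 : ℝ) δ, w c ≤ Real.circleAverage w c ρ) →
    (w '' ball (0 : ℂ) 1).Countable → ∀ z ∈ ball (0 : ℂ) 1, w z = w 0

/-- Conclusion of G11: the same on the covering space. -/
def G11Concl : Prop :=
  ∀ (n : ℕ) (X : Type) [TopologicalSpace X] [T2Space X] [ChartedSpace (Cm n) X]
    [IsManifold 𝓘(ℂ, Cm n) ω X] (E : Type) [TopologicalSpace E] (p : E → X), IsCoveringMap p →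
    ∀ u : E → ℝ, IsPsh (n := n) p u → (∃ B : ℝ, ∀ y, |u y| ≤ B) → ∀ U : Set E, IsOpen U →
    IsPreconnected U → (u '' U).Countable → ∀ y ∈ U, ∀ y' ∈ U, u y = u y'

/-- **G11**: `u` is constant on small coordinate balls (unions of discs through the centre). -/
def G11Stmt : Prop := G10Stmt → G11Concl

/-- **G12**: the covering group is countable (finitely generated, by `KD.conn`). -/
def G12Stmt : Prop :=
  ∀ (n : ℕ) (X : Type) [TopologicalSpace X] [T2Space X] [CompactSpace X]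
    [ChartedSpace (Cm n) X] [IsManifold 𝓘(ℂ, Cm n) ω X] (L : LineBundle n X) (P : Pcs L)
    (Γ : Type) [Group Γ], KD P Γ → Countable Γ

/-- The final theorem. -/
def GFinal : Prop :=
  ∀ (n : ℕ) (X : Type) [TopologicalSpace X] [T2Space X] [CompactSpace X] [ConnectedSpace X]
    [ChartedSpace (Cm n) X] [IsManifold 𝓘(ℂ, Cm n) ω X] (L : LineBundle n X), Positive L →
    ∀ (U : Set X) (x : X) (Q : Set X), IsOpen U → x ∈ U →
    (∀ c : Path x x, ∃ c' : Path x x, c.Homotopic c' ∧ ∀ t, c' t ∈ U) →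
    Q.Countable → (∀ y ∈ U, ∃ q ∈ Q, Chain n X y q) →
    SubexpGrowth (FundamentalGroup X x)

/-- **G9**: the universal covering `Y` (as in A2). All `t • y` lie in one component of `p⁻¹ U`; there `u`
takes countably many values (G8, G12), so it is constant (G11): contradiction to G6. `π₁ = Γᵐᵒᵖ` has the
same growth as `Γ`. -/
def G9Stmt : Prop := G6Concl → G8Concl → G11Concl → G12Stmt → G0aStmt → G5Stmt → GFinal

end Vale.Agent.P284.H894.G
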