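import Vale.Agent.P284.H894.G.Defs

/-! # P284 (helper894): groups of subexponential growth are amenable (Følner). -/

open scoped Topology Pointwise
open Filter Set Metric

noncomputable section

namespace Vale.Agent.P284.H894.G

/-- Følner's condition: for every finite `S` and `ε > 0` there is a finite nonempty set `F` with
`#(s F \ F) ≤ ε #F` for all `s ∈ S` (the group is amenable). -/
def Folner (A : Type*) [Group A] : Prop :=
  ∀ S : Set A, S.Finite → ∀ ε : ℝ, 0 < ε → ∃ F : Set A, F.Finite ∧ F.Nonempty ∧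
    ∀ s ∈ S, (((s • F) \ F).ncard : ℝ) ≤ ε * F.ncard

theorem SubexpGrowth.folner {A : Type*} [Group A] (h : SubexpGrowth A) : Folner A := by
  intro S hS ε hε
  set T : Set A := insert 1 S with hT
  have hTf : T.Finite := hS.insert 1
  have hf : ∀ k : ℕ, (T ^ k).Finite := fun k => by
    induction k with
    | zero => rw [pow_zero]; exact finite_one
    | succ k ih => rw [pow_succ]; exact ih.mul hTf
  have h1 : ∀ k : ℕ, (1 : A) ∈ T ^ k := fun k => by
    induction k with
    | zero => rw [pow_zero]; exact Set.mem_one.2 rfl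
    | succ k ih =>
      rw [pow_succ]
      exact ⟨1, ih, 1, mem_insert _ _, mul_one 1⟩
  have hsub : ∀ k : ℕ, T ^ k ⊆ T ^ (k + 1) := fun k x hx => by
    rw [pow_succ]
    exact ⟨x, hx, 1, mem_insert _ _, mul_one x⟩
  by_contra hcon
  push Not at hcon
  -- exponential growth
  have hgrow : ∀ k : ℕ, (1 + ε) * ((T ^ k).ncard : ℝ) < ((T ^ (k + 1)).ncard : ℝ) := by
    intro k
    obtain ⟨s, hs, h2⟩ := hcon (T ^ k) (hf k) ⟨1, h1 k⟩
    have h3 : T ^ k ∪ ((s • T ^ k) \ T ^ k) ⊆ T ^ (k + 1) := by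
      refine union_subset (hsub k) ?_
      rintro _ ⟨⟨x, hx, rfl⟩, -⟩
      rw [pow_succ']
      exact ⟨s, mem_insert_of_mem _ hs, x, hx, rfl⟩
    have h4 := ncard_le_ncard h3 (hf (k + 1))
    have h5 : (T ^ k ∪ ((s • T ^ k) \ T ^ k)).ncard =
        (T ^ k).ncard + ((s • T ^ k) \ T ^ k).ncard :=
      ncard_union_eq disjoint_sdiff_right (hf k) (((hf k).smul_set).subset sdiff_subset)
    rw [h5] at h4
    have h6 : ((T ^ k).ncard : ℝ) + (((s • T ^ k) \ T ^ k).ncard : ℝ) ≤ ((T ^ (k + 1)).ncard : ℝ) := by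
      exact_mod_cast h4
    linarith
  have hlow : ∀ k : ℕ, (1 + ε) ^ k ≤ ((T ^ k).ncard : ℝ) := by
    intro k
    induction k with
    | zero =>
      rw [pow_zero, pow_zero]
      have : (1 : Set A).ncard = 1 := by rw [← Set.singleton_one]; exact ncard_singleton 1
      rw [this]; simp
    | succ k ih =>
      rw [pow_succ']
      have := hgrow k
      have h7 : (1 + ε) * (1 + ε) ^ k ≤ (1 + ε) * ((T ^ k).ncard : ℝ) :=
        mul_le_mul_of_nonneg_left ih (by linarith)
      linarith
  set δ : ℝ := Real.log (1 + ε) / 2 with hδ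
  have hlog : 0 < Real.log (1 + ε) := Real.log_pos (by linarith)
  obtain ⟨C, hC⟩ := h T hTf δ (by positivity)
  have hexp : ∀ k : ℕ, Real.exp (δ * k) ≤ C := by
    intro k
    have h8 := (hlow k).trans (hC k)
    have h9 : (1 + ε) ^ k = Real.exp (δ * k) * Real.exp (δ * k) := by
      rw [← Real.exp_add, ← two_mul, hδ]
      have : 2 * (Real.log (1 + ε) / 2 * (k : ℝ)) = k * Real.log (1 + ε) := by ring
      rw [this, Real.exp_nat_mul, Real.exp_log (by linarith)]
    rw [h9] at h8
    exact le_of_mul_le_mul_right h8 (Real.exp_pos _)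
  obtain ⟨k, hk⟩ := exists_nat_gt (C / δ)
  have hδ0 : 0 < δ := by positivity
  have h10 := hexp k
  have h11 := Real.add_one_le_exp (δ * k)
  rw [div_lt_iff₀ hδ0] at hk
  linarith

end Vale.Agent.P284.H894.G
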