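import Vale.Agent.P284.H894.G.G0b
import Vale.Agent.P284.H894.B1
import Vale.Agent.P284.H894.B2
import Vale.Agent.P284.H283.B0

/-! # P284, block G0b. -/

namespace Vale.Agent.P284.H894.G

/-- **Block G0b.** -/
theorem g0bStmt : G0bStmt := G0b.g0b_of H283.b0 b1Stmt B2x.b2

end Vale.Agent.P284.H894.G
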