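import Vale.Agent.P284.H894.G.Spec
import Vale.Agent.P284.H894.G.Amen
import Vale.Agent.P284.H894.G.G0bFin
import Vale.Agent.P284.H841.A4
import Vale.Agent.P284.H790.A5
import Vale.Agent.P284.H622.G1
import Vale.Agent.P284.H427.G2
import Vale.Agent.P284.H427.G3
import Vale.Agent.P284.H468.G4
import Vale.Agent.P284.H639.G5
import Vale.Agent.P284.H639.G6
import Vale.Agent.P284.H427.G0a
import Vale.Agent.P284.H427.G7
import Vale.Agent.P284.H622.G8
import Vale.Agent.P284.H622.G9
import Vale.Agent.P284.H427.G10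
import Vale.Agent.P284.H427.G11

/-!
# P284: entire curves and the growth of the fundamental group

Assembly of the blocks G0 … G12.
-/

open scoped Manifold ContDiff Topology Pointwise
open Filter Set Metric

namespace Vale.Agent.P284.H894.G

open Vale.Agent.P272.K Vale.Agent.P284.H248 Vale.Agent.P284.H894

theorem g6Concl : G6Concl :=
  H639.g6Stmt H427.g0aStmt a4 H790.a5Stmt g0bStmt (H427.g3Stmt H622.g1Stmt H427.g2Stmt)
    H468.g4Stmt H639.g5Stmt

theorem gFinal : GFinal :=
  H622.g9Stmt g6Concl (H622.g8Stmt H427.g7Stmt) (H427.g11Stmt H427.g10Stmt) H639.g12Stmt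
    H427.g0aStmt H639.g5Stmt

end Vale.Agent.P284.H894.G
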